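import Vale.Agent.P181.MD.Spec
import Vale.Agent.P181.H539.Growth

set_option autoImplicit false

/-!
# P181, MD: [MD-LB], the lower bound (`RemStmt → MatM → DesM → LBM`)

Growth from `a` to `b` letters after the removal of the `N` columns: the rows `0, 1` give
`a ^ 0.96 / 2` each, the rows `2, .., m - 1` give `b ^ 0.6` each, and `b - a ≥ 5 b / 6`.
-/

namespace Vale.Agent.P181.MD.H481

open Finset
open Vale.Agent.P181 Vale.Agent.P181.H280 Vale.Agent.P181.H463

theorem choose_fac {s b : ℕ} (hb : 0 < b) :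
    (s + b - 1).choose (b - 1) * b.factorial ≤ (s + b) ^ b := by
  obtain ⟨c, rfl⟩ : ∃ c, b = c + 1 := ⟨b - 1, by omega⟩
  have h1 : s + (c + 1) - 1 = s + c := by omega
  rw [h1, Nat.add_sub_cancel, Nat.factorial_succ]
  calc (s + c).choose c * ((c + 1) * c.factorial)
      = (c + 1) * (c.factorial * (s + c).choose c) := by ring
    _ = (c + 1) * (s + c).descFactorial c := by rw [Nat.descFactorial_eq_factorial_mul_choose]
    _ ≤ (s + (c + 1)) * (s + (c + 1)) ^ c :=
        Nat.mul_le_mul (by omega)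
          ((Nat.descFactorial_le_pow _ _).trans (Nat.pow_le_pow_left (by omega) _))
    _ = (s + (c + 1)) ^ (c + 1) := by rw [pow_succ]; ring

theorem prod_ge {n m b : ℕ} (hmn : m ≤ n) (hm : 2 ≤ m) (η : Fin n → ℕ) {A1 A2 : ℝ}
    (h1 : 0 ≤ A1) (h2 : 0 ≤ A2)
    (hA1 : ∀ i : Fin n, (i : ℕ) < 2 → A1 ≤ (η i : ℝ) / b)
    (hA2 : ∀ i : Fin n, (i : ℕ) < m → A2 ≤ (η i : ℝ) / b) :
    A1 ^ 2 * A2 ^ (m - 2) ≤ ∏ i, (1 + (η i : ℝ) / b) := by
  obtain ⟨s, rfl⟩ : ∃ s, m = 2 + s := ⟨m - 2, by omega⟩
  obtain ⟨t, rfl⟩ : ∃ t, n = 2 + s + t := ⟨n - (2 + s), by omega⟩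
  have e1 : 2 + s - 2 = s := by omega
  rw [e1]
  set g : ℕ → ℝ := fun i => if i < 2 then A1 else if i < 2 + s then A2 else 1 with hg
  have hg1 : ∏ i : Fin (2 + s + t), g (i : ℕ) = A1 ^ 2 * A2 ^ s := by
    rw [Fin.prod_univ_eq_prod_range g (2 + s + t), Finset.prod_range_add,
      Finset.prod_range_add]
    have p1 : ∏ x ∈ range 2, g x = A1 ^ 2 := by
      rw [Finset.prod_congr rfl (g := fun _ => A1) fun x hx => ?_]
      · rw [Finset.prod_const, Finset.card_range]
      · rw [hg]
        simp only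
        rw [if_pos (Finset.mem_range.1 hx)]
    have p2 : ∏ x ∈ range s, g (2 + x) = A2 ^ s := by
      rw [Finset.prod_congr rfl (g := fun _ => A2) fun x hx => ?_]
      · rw [Finset.prod_const, Finset.card_range]
      · rw [hg]
        simp only
        have := Finset.mem_range.1 hx
        rw [if_neg (by omega), if_pos (by omega)]
    have p3 : ∏ x ∈ range t, g (2 + s + x) = 1 := by
      apply Finset.prod_eq_one
      intro x _
      rw [hg]
      simp only
      rw [if_neg (by omega), if_neg (by omega)]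
    rw [p1, p2, p3, mul_one]
  rw [← hg1]
  refine Finset.prod_le_prod (fun i _ => ?_) (fun i _ => ?_)
  · rw [hg]
    simp only
    split_ifs <;> linarith
  · have h0 : (0 : ℝ) ≤ (η i : ℝ) / b := by positivity
    rw [hg]
    simp only
    split_ifs with h3 h4
    · have := hA1 i h3
      linarith
    · have := hA2 i h4
      linarith
    · linarith

/-- the final inequality between the exponents -/
theorem num {α β s L lb x y : ℝ} (hα : 0 ≤ α) (h6 : 6 * α ≤ β) (hs : 1 ≤ s) (hL : 40 ≤ L)
    (hlb : lb ≤ 1.02 * L) (hx : 0.96 * L - Real.log 2 ≤ x) (hy : 0.6 * L ≤ y) :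
    (s + 2) * α * Real.log 2 + β * (Real.log 2 + L + lb) ≤ (β - α) * (2 * x + s * y) := by
  have l2a : Real.log 2 < 0.6931471808 := Real.log_two_lt_d9
  have l2b : 0 < Real.log 2 := Real.log_pos (by norm_num)
  have hβ : 0 ≤ β := by linarith
  have hsL : 0 ≤ (s - 1) * (L - 40) := mul_nonneg (by linarith) (by linarith)
  have h1 : 1.92 * L - 2 * Real.log 2 + 0.6 * (s * L) ≤ 2 * x + s * y := by
    have h7 : s * (0.6 * L) ≤ s * y := mul_le_mul_of_nonneg_left hy (by linarith)
    linarith
  have h2 : 0 ≤ 1.92 * L - 2 * Real.log 2 + 0.6 * (s * L) := by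
    have h7 : 0 ≤ s * L := mul_nonneg (by linarith) (by linarith)
    linarith
  have h3 : 5 / 6 * β ≤ β - α := by linarith
  have h4 : 5 / 6 * β * (1.92 * L - 2 * Real.log 2 + 0.6 * (s * L)) ≤
      (β - α) * (2 * x + s * y) := mul_le_mul h3 h1 h2 (by linarith)
  have h5 : (s + 2) * α * Real.log 2 ≤ (s + 2) * (β / 6) * Real.log 2 := by
    apply mul_le_mul_of_nonneg_right _ l2b.le
    apply mul_le_mul_of_nonneg_left _ (by linarith)
    linarith
  have h8 : s * Real.log 2 ≤ s * 0.6931471808 := mul_le_mul_of_nonneg_left l2a.le (by linarith)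
  have h7 : (s + 2) / 6 * Real.log 2 + (Real.log 2 + L + lb) ≤
      5 / 6 * (1.92 * L - 2 * Real.log 2 + 0.6 * (s * L)) := by
    nlinarith
  have h9 := mul_le_mul_of_nonneg_left h7 hβ
  linarith

/-- **[MD-LB]** -/
theorem lbmStep : LBMStep := by
  intro hRem hMat hDes
  obtain ⟨b0, hDes⟩ := hDes
  refine ⟨max b0 ⌈Real.exp 40⌉₊, ?_⟩
  intro a b n m N lam ha0 h6 h50 hn hlam hsum hm3 hmn hm20 hN1 hN2 hgap hrow
  have hexp : Real.exp 40 ≤ a := by
    have h1 : (⌈Real.exp 40⌉₊ : ℝ) ≤ a := by exact_mod_cast (le_max_right _ _).trans ha0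
    exact (Nat.le_ceil _).trans h1
  have haR : (0 : ℝ) < a := lt_of_lt_of_le (Real.exp_pos _) hexp
  have ha : 0 < a := by exact_mod_cast haR
  have hL : 40 ≤ Real.log a := (Real.le_log_iff_exp_le haR).2 hexp
  have hb : 0 < b := by omega
  have hbR : (0 : ℝ) < b := by exact_mod_cast hb
  have hab : a ≤ b := by omega
  have hb0 : b0 ≤ b := ((le_max_left _ _).trans ha0).trans hab
  have l2a : Real.log 2 < 0.6931471808 := Real.log_two_lt_d9
  have l2b : 0 < Real.log 2 := Real.log_pos (by norm_num)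
  -- logarithms
  have hlab : Real.log a ≤ Real.log b := Real.log_le_log haR (by exact_mod_cast hab)
  have hlb : 50 * Real.log b ≤ 51 * Real.log a := by
    have h1 : Real.log ((b : ℝ) ^ 50) ≤ Real.log ((a : ℝ) ^ 51) :=
      Real.log_le_log (by positivity) (by exact_mod_cast h50)
    rw [Real.log_pow, Real.log_pow] at h1
    exact_mod_cast h1
  have hNpos : 0 < N := by
    rcases Nat.eq_zero_or_pos N with h | h
    · rw [h, zero_pow (by norm_num)] at hN1
      have := pow_pos hb 8
      omega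
    · exact h
  have hNR : (0 : ℝ) < N := by exact_mod_cast hNpos
  have hlN1 : 8 * Real.log b ≤ 5 * Real.log N := by
    have h1 : Real.log ((b : ℝ) ^ 8) ≤ Real.log ((N : ℝ) ^ 5) :=
      Real.log_le_log (by positivity) (by exact_mod_cast hN1)
    rw [Real.log_pow, Real.log_pow] at h1
    exact_mod_cast h1
  have hlN2 : 5 * Real.log N ≤ 5 * Real.log 2 + 8 * Real.log b := by
    have h1 : Real.log ((N : ℝ) ^ 5) ≤ Real.log ((2 : ℝ) ^ 5 * (b : ℝ) ^ 8) := by
      apply Real.log_le_log (by positivity)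
      have h2 : (N : ℝ) ^ 5 ≤ 32 * (b : ℝ) ^ 8 := by exact_mod_cast hN2
      norm_num
      linarith
    rw [Real.log_mul (by positivity) (by positivity), Real.log_pow, Real.log_pow,
      Real.log_pow] at h1
    exact_mod_cast h1
  -- the second row
  have h1n : 1 < n := by omega
  have hM1 : T4.ex lam 1 = lam ⟨1, h1n⟩ := by rw [T4.ex, dif_pos h1n]
  obtain ⟨M, hM⟩ : ∃ M, M = T4.ex lam 1 := ⟨_, rfl⟩
  rw [← hM] at hrow hM1
  have hMpos : 0 < M := by
    rcases Nat.eq_zero_or_pos M with h | h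
    · rw [h, zero_pow (by norm_num)] at hrow
      have := pow_pos ha 99
      omega
    · exact h
  have hMR : (0 : ℝ) < M := by exact_mod_cast hMpos
  have hlM : 99 * Real.log a ≤ 50 * Real.log M := by
    have h1 : Real.log ((a : ℝ) ^ 99) ≤ Real.log ((M : ℝ) ^ 50) :=
      Real.log_le_log (by positivity) (by exact_mod_cast hrow)
    rw [Real.log_pow, Real.log_pow] at h1
    exact_mod_cast h1
  have h2NM : 2 * (N : ℝ) ≤ M := by
    rw [← Real.log_le_log_iff (by positivity) hMR, Real.log_mul (by norm_num) hNR.ne']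
    linarith
  have h2NM' : 2 * N ≤ M := by exact_mod_cast h2NM
  -- the rest
  obtain ⟨η, hη⟩ : ∃ η : Fin n → ℕ, η = fun i => lam i - (if (i : ℕ) < m then N else 0) :=
    ⟨_, rfl⟩
  have hηi : ∀ i, η i = lam i - (if (i : ℕ) < m then N else 0) := fun i => by rw [hη]
  have hadd : ∀ i : Fin n, (if (i : ℕ) < m then N else 0) + η i = lam i := by
    intro i
    rw [hηi]
    by_cases hi : (i : ℕ) < m
    · have := hgap i hi
      rw [if_pos hi]
      omega
    · rw [if_neg hi]
      omega
  have hanti : Antitone η := by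
    intro i j hij
    have h1 := hlam hij
    rw [hηi, hηi]
    by_cases hj : (j : ℕ) < m
    · have hi : (i : ℕ) < m := lt_of_le_of_lt hij hj
      rw [if_pos hi, if_pos hj]
      omega
    · rw [if_neg hj]
      by_cases hi : (i : ℕ) < m
      · have h2 := hgap i hi
        rw [if_pos hi]
        have h3 : lam j ≤ T4.ex lam m := by
          have hmn' : m < n := lt_of_le_of_lt (not_lt.1 hj) j.2
          rw [T4.ex, dif_pos hmn']
          exact hlam (by
            rw [Fin.le_def]
            exact not_lt.1 hj)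
        omega
      · rw [if_neg hi]
        omega
  have hdes := hDes b m N hb0 hm3 hm20 hN1 hN2
  have h1 := hRem n a m N lam η hn hmn hlam hanti hadd hgap
  have h2 := hMat n a b N m lam η hb hdes hmn hanti hadd hsum
  have h3 := Vale.Agent.P181.H539.gt_growth_prod (n := n) (a := a) (N := b) hn ha hab hanti
  -- the product
  have hη1 : ∀ i : Fin n, (i : ℕ) < 2 → (M : ℝ) / (2 * b) ≤ (η i : ℝ) / b := by
    intro i hi
    have h4 : M ≤ lam i := by
      rw [hM1]
      exact hlam (by
        rw [Fin.le_def]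
        show (i : ℕ) ≤ 1
        omega)
    have h5 : N + η i = lam i := by
      have := hadd i
      rwa [if_pos (by omega)] at this
    have h6 : M ≤ 2 * η i := by omega
    have h7 : (M : ℝ) ≤ 2 * η i := by exact_mod_cast h6
    rw [div_le_div_iff₀ (by positivity) hbR]
    nlinarith
  have hη2 : ∀ i : Fin n, (i : ℕ) < m → (N : ℝ) / b ≤ (η i : ℝ) / b := by
    intro i hi
    have h5 : N + η i = lam i := by
      have := hadd i
      rwa [if_pos hi] at this
    have h6 := hgap i hi
    have h7 : (N : ℝ) ≤ η i := by exact_mod_cast (by omega : N ≤ η i)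
    exact div_le_div_of_nonneg_right h7 hbR.le
  have hprod := prod_ge (b := b) hmn (by omega) η (A1 := (M : ℝ) / (2 * b)) (A2 := (N : ℝ) / b)
    (by positivity) (by positivity) hη1 hη2
  -- the numbers
  have hs : ∑ i, η i ≤ a * b := by
    rw [← hsum]
    exact Finset.sum_le_sum fun i _ => by
      have := hadd i
      omega
  have hc : ((((∑ i, η i) + b - 1).choose (b - 1) * b.factorial : ℕ) : ℝ) ≤
      (2 * (a * b)) ^ b := by
    have h4 := choose_fac (s := ∑ i, η i) hb
    have h5 : (∑ i, η i) + b ≤ 2 * (a * b) := by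
      have : b ≤ a * b := Nat.le_mul_of_pos_left b ha
      omega
    have h6 := h4.trans (Nat.pow_le_pow_left h5 b)
    exact_mod_cast h6
  have hbase : (0 : ℝ) < ((M : ℝ) / (2 * b)) ^ 2 * ((N : ℝ) / b) ^ (m - 2) := by positivity
  have hnum : (2 : ℝ) ^ (m * a) * (2 * (a * b)) ^ b ≤
      (((M : ℝ) / (2 * b)) ^ 2 * ((N : ℝ) / b) ^ (m - 2)) ^ (b - a) := by
    rw [← Real.log_le_log_iff (by positivity) (by positivity),
      Real.log_mul (by positivity) (by positivity), Real.log_pow, Real.log_pow, Real.log_pow,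
      Real.log_mul (by norm_num) (by positivity), Real.log_mul haR.ne' hbR.ne',
      Real.log_mul (by positivity) (by positivity), Real.log_pow, Real.log_pow,
      Real.log_div hMR.ne' (by positivity), Real.log_div hNR.ne' hbR.ne',
      Real.log_mul (by norm_num) hbR.ne']
    have h4 : ((b - a : ℕ) : ℝ) = (b : ℝ) - a := Nat.cast_sub hab
    have h5 : ((m - 2 : ℕ) : ℝ) = (m : ℝ) - 2 := by
      rw [Nat.cast_sub (by omega)]
      norm_num
    rw [h4, h5]
    have hmR : (3 : ℝ) ≤ m := by exact_mod_cast hm3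
    have h7 := num (α := a) (β := b) (s := (m : ℝ) - 2) (L := Real.log a) (lb := Real.log b)
      (x := Real.log M - (Real.log 2 + Real.log b)) (y := Real.log N - Real.log b)
      haR.le (by exact_mod_cast h6) (by linarith) hL (by linarith) (by linarith) (by linarith)
    push_cast
    have e1 : ((m : ℝ) - 2 + 2) * a * Real.log 2 = m * a * Real.log 2 := by ring
    rw [e1] at h7
    have e2 : (b : ℝ) * (Real.log 2 + (Real.log a + Real.log b)) =
        b * (Real.log 2 + Real.log a + Real.log b) := by ring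
    rw [e2]
    exact h7
  -- the end
  set T : ℝ := ∏ i, (1 + (η i : ℝ) / b) with hT
  have hT0 : 0 < T := lt_of_lt_of_le hbase hprod
  have hTp : (((M : ℝ) / (2 * b)) ^ 2 * ((N : ℝ) / b) ^ (m - 2)) ^ (b - a) ≤ T ^ (b - a) :=
    pow_le_pow_left₀ hbase.le hprod _
  have hX0 : 0 < T ^ (b - a) := pow_pos hT0 _
  have h1R : (gt n a lam : ℝ) ≤ 2 ^ (m * a) * gt n a η := by exact_mod_cast h1
  have h2R : (gt n b η : ℝ) ≤ ((((∑ i, η i) + b - 1).choose (b - 1) * b.factorial : ℕ) : ℝ) *
      plethMult b a n lam := by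
    rw [← Nat.mul_assoc] at h2
    exact_mod_cast h2
  have hP0 : (0 : ℝ) ≤ plethMult b a n lam := Nat.cast_nonneg _
  have hfin : (gt n a lam : ℝ) * T ^ (b - a) ≤ plethMult b a n lam * T ^ (b - a) := by
    calc (gt n a lam : ℝ) * T ^ (b - a)
        ≤ (2 ^ (m * a) * gt n a η) * T ^ (b - a) := mul_le_mul_of_nonneg_right h1R hX0.le
      _ = 2 ^ (m * a) * (gt n a η * T ^ (b - a)) := by ring
      _ ≤ 2 ^ (m * a) * gt n b η := mul_le_mul_of_nonneg_left h3 (by positivity)
      _ ≤ 2 ^ (m * a) * (((((∑ i, η i) + b - 1).choose (b - 1) * b.factorial : ℕ) : ℝ) *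
          plethMult b a n lam) := mul_le_mul_of_nonneg_left h2R (by positivity)
      _ ≤ 2 ^ (m * a) * ((2 * (a * b)) ^ b * plethMult b a n lam) :=
          mul_le_mul_of_nonneg_left (mul_le_mul_of_nonneg_right hc hP0) (by positivity)
      _ = (2 ^ (m * a) * (2 * (a * b)) ^ b) * plethMult b a n lam := by ring
      _ ≤ T ^ (b - a) * plethMult b a n lam :=
          mul_le_mul_of_nonneg_right (hnum.trans hTp) hP0
      _ = plethMult b a n lam * T ^ (b - a) := mul_comm _ _
  have hres := le_of_mul_le_mul_right hfin hX0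
  exact_mod_cast hres

end Vale.Agent.P181.MD.H481
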